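import Mathlib

/-! # The Hausdorff content

`ct s` is the `s`-dimensional Hausdorff content (an outer measure).  Density of a set of positive
content (`density`), upper semicontinuity (`ct_limit`), behaviour under Lipschitz maps. -/

open MeasureTheory Set Metric Filter
open scoped ENNReal NNReal Topology

namespace Vale.Agent.P098.H246

section
variable {X : Type*} [PseudoEMetricSpace X]

/-- The `s`-dimensional Hausdorff content. -/
noncomputable def ct (s : ℝ) : OuterMeasure X :=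
  OuterMeasure.ofFunction (fun A => ⨆ _ : A.Nonempty, ediam A ^ s) (by simp)

theorem gau_eq {s : ℝ} (hs : 0 < s) (A : Set X) :
    (⨆ _ : A.Nonempty, ediam A ^ s) = ediam A ^ s := by
  rcases A.eq_empty_or_nonempty with rfl | h
  · simp [hs]
  · simp [h]

theorem ct_le {s : ℝ} (hs : 0 < s) (A : Set X) : ct s A ≤ ediam A ^ s := by
  rw [← gau_eq hs A]; exact OuterMeasure.ofFunction_le A

theorem ct_apply {s : ℝ} (hs : 0 < s) (A : Set X) :
    ct s A = ⨅ (t : ℕ → Set X) (_ : A ⊆ ⋃ n, t n), ∑' n, ediam (t n) ^ s := by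
  rw [ct, OuterMeasure.ofFunction_apply]
  simp_rw [gau_eq hs]

theorem exists_cover {s : ℝ} (hs : 0 < s) {A : Set X} {c : ℝ≥0∞} (h : ct s A < c) :
    ∃ t : ℕ → Set X, A ⊆ ⋃ n, t n ∧ ∑' n, ediam (t n) ^ s < c := by
  rw [ct_apply hs] at h
  simp only [iInf_lt_iff] at h
  obtain ⟨t, ht, h⟩ := h
  exact ⟨t, ht, h⟩

theorem le_ct {s : ℝ} (hs : 0 < s) {A : Set X} {c : ℝ≥0∞}
    (h : ∀ t : ℕ → Set X, A ⊆ ⋃ n, t n → c ≤ ∑' n, ediam (t n) ^ s) : c ≤ ct s A := by
  rw [ct_apply hs]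
  exact le_iInf₂ h

theorem ct_subsingleton {s : ℝ} (hs : 0 < s) {A : Set X} (h : A.Subsingleton) : ct s A = 0 := by
  refine le_antisymm ((ct_le hs A).trans ?_) (zero_le)
  rw [ediam_subsingleton h, ENNReal.zero_rpow_of_pos hs]

theorem ct_image_le {Y : Type*} [PseudoEMetricSpace Y] {s : ℝ} (hs : 0 < s) {f : X → Y} {K : ℝ≥0}
    (hK : K ≠ 0) (hf : LipschitzWith K f) (A : Set X) : ct s (f '' A) ≤ (K : ℝ≥0∞) ^ s * ct s A := by
  have hK' : (K : ℝ≥0∞) ^ s ≠ 0 := by
    simp [ENNReal.rpow_eq_zero_iff, hK]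
  have hK'' : (K : ℝ≥0∞) ^ s ≠ ⊤ := by
    simp [ENNReal.rpow_eq_top_iff, hK]
  rw [mul_comm, ← ENNReal.div_le_iff hK' hK'']
  refine le_ct hs fun t ht => ?_
  rw [ENNReal.div_le_iff hK' hK'', ← ENNReal.tsum_mul_right]
  have h1 : f '' A ⊆ ⋃ n, f '' t n := by
    rw [← image_iUnion]; exact image_mono ht
  calc ct s (f '' A) ≤ ct s (⋃ n, f '' t n) := measure_mono h1
    _ ≤ ∑' n, ct s (f '' t n) := measure_iUnion_le _
    _ ≤ ∑' n, ediam (t n) ^ s * (K : ℝ≥0∞) ^ s := by
      refine ENNReal.tsum_le_tsum fun n => (ct_le hs _).trans ?_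
      rw [mul_comm, ← ENNReal.mul_rpow_of_nonneg _ _ hs.le]
      exact ENNReal.rpow_le_rpow (hf.ediam_image_le _) hs.le

end

section
variable {X : Type*} [MetricSpace X]

theorem hausdorff_zero [MeasurableSpace X] [BorelSpace X] {s : ℝ} (hs : 0 < s) {A : Set X}
    (h : ct s A = 0) : μH[s] A = 0 := by
  rw [Measure.hausdorffMeasure_apply]
  refine le_antisymm (iSup₂_le fun r hr => ?_) (zero_le)
  refine le_of_forall_gt fun c hc => ?_
  have hd : 0 < min c (r ^ s) := lt_min hc (ENNReal.rpow_pos_of_nonneg hr hs.le)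
  rw [← h] at hd
  obtain ⟨t, ht, hsum⟩ := exists_cover hs hd
  refine lt_of_le_of_lt (iInf₂_le_of_le t ht (iInf_le_of_le (fun n => ?_) le_rfl)) ?_
  · by_contra hcon
    push Not at hcon
    have h1 : r ^ s ≤ ediam (t n) ^ s := ENNReal.rpow_le_rpow hcon.le hs.le
    have h2 : ediam (t n) ^ s ≤ ∑' n, ediam (t n) ^ s := ENNReal.le_tsum n
    exact absurd (lt_of_le_of_lt (h1.trans h2) hsum) (not_lt.2 (min_le_right _ _))
  · simp_rw [gau_eq hs]
    exact lt_of_lt_of_le hsum (min_le_left _ _)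

/-- Points of positive density of the content. -/
theorem density [SecondCountableTopology X] {s : ℝ} (hs : 0 < s) {A : Set X} (h : ct s A ≠ 0) :
    ∃ x ∈ A, ∃ᶠ r in 𝓝[>] (0 : ℝ), ENNReal.ofReal r ^ s ≤ 2 * ct s (A ∩ closedBall x r) := by
  by_contra hcon
  push Not at hcon
  apply h
  set B : ℕ → Set X := fun n => {x | x ∈ A ∧ ∀ r : ℝ, 0 < r → r < 1 / ((n : ℝ) + 1) →
    2 * ct s (A ∩ closedBall x r) < ENNReal.ofReal r ^ s} with hB
  have hAB : A ⊆ ⋃ n, B n := by
    intro x hx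
    have h1 := hcon x hx
    rw [eventually_nhdsWithin_iff, Metric.eventually_nhds_iff] at h1
    obtain ⟨ε, hε, h1⟩ := h1
    obtain ⟨n, hn⟩ := exists_nat_one_div_lt hε
    refine mem_iUnion.2 ⟨n, hx, fun r hr hrn => h1 ?_ hr⟩
    rw [Real.dist_eq, sub_zero, abs_of_pos hr]
    exact hrn.trans hn
  -- pieces
  have piece : ∀ (n : ℕ) (P : Set X), P ⊆ B n → ediam P < ENNReal.ofReal (1 / ((n : ℝ) + 1)) →
      ct s P = 0 := by
    intro n P hP hPd
    by_contra hne
    have hfin : ct s P ≠ ⊤ := by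
      refine ne_top_of_le_ne_top ?_ (ct_le hs P)
      exact ENNReal.rpow_ne_top_of_nonneg hs.le (ne_top_of_lt hPd)
    have hlt : ct s P < 2 * ct s P := by
      rw [two_mul]
      exact ENNReal.lt_add_right hfin hne
    obtain ⟨t, ht, hsum⟩ := exists_cover hs hlt
    have h1 : 2 * ct s P ≤ ∑' i, ediam (t i) ^ s := by
      have h2 : P ⊆ ⋃ i, P ∩ t i := by
        rw [← inter_iUnion]; exact subset_inter Subset.rfl ht
      calc 2 * ct s P ≤ 2 * ∑' i, ct s (P ∩ t i) := by
            gcongr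
            exact (measure_mono h2).trans (measure_iUnion_le _)
        _ = ∑' i, 2 * ct s (P ∩ t i) := ENNReal.tsum_mul_left.symm
        _ ≤ ∑' i, ediam (t i) ^ s := by
            refine ENNReal.tsum_le_tsum fun i => ?_
            rcases (P ∩ t i).eq_empty_or_nonempty with he | ⟨x, hx⟩
            · rw [he]; simp
            set δ : ℝ≥0∞ := ediam (P ∩ t i) with hδ
            have hδt : δ ≤ ediam (t i) := ediam_mono inter_subset_right
            have hδP : δ ≤ ediam P := ediam_mono inter_subset_left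
            have hδlt : δ < ENNReal.ofReal (1 / ((n : ℝ) + 1)) := lt_of_le_of_lt hδP hPd
            have hδtop : δ ≠ ⊤ := ne_top_of_lt hδlt
            rcases eq_or_ne δ 0 with h0 | h0
            · rw [ct_subsingleton hs (ediam_eq_zero_iff.1 h0)]; simp
            have hr0 : 0 < δ.toReal := ENNReal.toReal_pos h0 hδtop
            have hrn : δ.toReal < 1 / ((n : ℝ) + 1) := by
              rw [← ENNReal.toReal_ofReal (r := 1 / ((n : ℝ) + 1)) (by positivity)]
              exact (ENNReal.toReal_lt_toReal hδtop ENNReal.ofReal_ne_top).2 hδlt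
            have h3 := (hP hx.1).2 δ.toReal hr0 hrn
            rw [ENNReal.ofReal_toReal hδtop] at h3
            have h4 : P ∩ t i ⊆ A ∩ closedBall x δ.toReal := by
              intro y hy
              refine ⟨(hP hy.1).1, ?_⟩
              rw [mem_closedBall, dist_edist]
              exact ENNReal.toReal_mono hδtop (edist_le_ediam_of_mem hy hx)
            calc 2 * ct s (P ∩ t i) ≤ 2 * ct s (A ∩ closedBall x δ.toReal) := by
                  gcongr
              _ ≤ δ ^ s := h3.le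
              _ ≤ ediam (t i) ^ s := ENNReal.rpow_le_rpow hδt hs.le
    exact absurd hsum (not_lt.2 h1)
  have hBn : ∀ n, ct s (B n) = 0 := by
    intro n
    obtain ⟨D, hDc, hDd⟩ := TopologicalSpace.exists_countable_dense X
    set ρ : ℝ := 1 / (4 * ((n : ℝ) + 1)) with hρ
    have hρ0 : 0 < ρ := by positivity
    have hcov : B n ⊆ ⋃ q ∈ D, B n ∩ ball q ρ := by
      intro x hx
      obtain ⟨q, hq, hxq⟩ := hDd.exists_dist_lt x hρ0
      exact mem_iUnion₂.2 ⟨q, hq, hx, hxq⟩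
    refine measure_mono_null hcov ?_
    rw [measure_biUnion_null_iff hDc]
    intro q _
    refine piece n _ inter_subset_left ?_
    calc ediam (B n ∩ ball q ρ) ≤ ediam (ball q ρ) := ediam_mono inter_subset_right
      _ ≤ 2 * ENNReal.ofReal ρ := by
          rw [← eball_ofReal]
          exact ediam_eball_le
      _ = ENNReal.ofReal (2 * ρ) := by
          rw [ENNReal.ofReal_mul (by norm_num)]; simp
      _ < ENNReal.ofReal (1 / ((n : ℝ) + 1)) := by
          rw [ENNReal.ofReal_lt_ofReal_iff (by positivity)]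
          have : 2 * ρ = (1 / ((n : ℝ) + 1)) / 2 := by rw [hρ]; field_simp; norm_num
          rw [this]
          exact half_lt_self (by positivity)
  refine measure_mono_null hAB ?_
  rw [measure_iUnion_null_iff]
  exact hBn

/-- Outer regularity. -/
theorem exists_open {s : ℝ} (hs : 0 < s) {A : Set X} {c : ℝ≥0∞} (h : ct s A < c) :
    ∃ W, IsOpen W ∧ A ⊆ W ∧ ct s W < c := by
  obtain ⟨t, ht, hsum⟩ := exists_cover hs h
  have hne : ∑' n, ediam (t n) ^ s ≠ ⊤ := ne_top_of_lt hsum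
  obtain ⟨ε', hε'0, hε'⟩ := ENNReal.exists_pos_sum_of_countable (tsub_pos_of_lt hsum).ne' ℕ
  have hδ : ∀ n, ∃ δ : ℝ≥0, 0 < δ ∧ (ediam (t n) + 2 * δ) ^ s ≤ ediam (t n) ^ s + ε' n := by
    intro n
    have hfin : ediam (t n) ^ s ≠ ⊤ := ne_top_of_le_ne_top hne (ENNReal.le_tsum n)
    have hcont : Continuous fun δ : ℝ≥0 => (ediam (t n) + 2 * (δ : ℝ≥0∞)) ^ s := by
      refine ENNReal.continuous_rpow_const.comp ?_
      refine continuous_const.add ?_
      exact (ENNReal.continuous_const_mul (by norm_num)).comp ENNReal.continuous_coe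
    have h0 : (ediam (t n) + 2 * ((0 : ℝ≥0) : ℝ≥0∞)) ^ s < ediam (t n) ^ s + ε' n := by
      simp only [ENNReal.coe_zero, mul_zero, add_zero]
      exact ENNReal.lt_add_right hfin (by exact_mod_cast (hε'0 n).ne')
    have hev : ∀ᶠ δ : ℝ≥0 in 𝓝 (0 : ℝ≥0),
        (ediam (t n) + 2 * ((δ : ℝ≥0) : ℝ≥0∞)) ^ s < ediam (t n) ^ s + ε' n :=
      hcont.continuousAt.eventually_lt continuousAt_const h0
    have hev2 : ∀ᶠ δ : ℝ≥0 in 𝓝[>] (0 : ℝ≥0),
        (ediam (t n) + 2 * ((δ : ℝ≥0) : ℝ≥0∞)) ^ s < ediam (t n) ^ s + ε' n := hev.filter_mono nhdsWithin_le_nhds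
    obtain ⟨δ, h1, h2⟩ := (hev2.and self_mem_nhdsWithin).exists
    exact ⟨δ, h2, h1.le⟩
  choose δ hδ0 hδ using hδ
  refine ⟨⋃ n, thickening (δ n) (t n), isOpen_iUnion fun n => isOpen_thickening, ?_, ?_⟩
  · exact ht.trans (iUnion_mono fun n => self_subset_thickening (by exact_mod_cast hδ0 n) _)
  · calc ct s (⋃ n, thickening (δ n) (t n)) ≤ ∑' n, ct s (thickening (δ n) (t n)) :=
          measure_iUnion_le _
      _ ≤ ∑' n, (ediam (t n) ^ s + ε' n) := by
          refine ENNReal.tsum_le_tsum fun n => (ct_le hs _).trans ?_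
          exact (ENNReal.rpow_le_rpow (ediam_thickening_le _) hs.le).trans (hδ n)
      _ = ∑' n, ediam (t n) ^ s + ∑' n, (ε' n : ℝ≥0∞) := ENNReal.tsum_add
      _ < ∑' n, ediam (t n) ^ s + (c - ∑' n, ediam (t n) ^ s) :=
          ENNReal.add_lt_add_left hne hε'
      _ = c := add_tsub_cancel_of_le hsum.le

/-- Upper semicontinuity of the content for limits of sets in a compact set. -/
theorem ct_limit {s : ℝ} (hs : 0 < s) {C : Set X} (hC : IsCompact C) {K : ℕ → Set X} {K₀ : Set X}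
    (hKC : ∀ n, K n ⊆ C)
    (hlim : ∀ (φ : ℕ → ℕ) (x : ℕ → X) (x₀ : X), StrictMono φ → (∀ n, x n ∈ K (φ n)) →
      Tendsto x atTop (𝓝 x₀) → x₀ ∈ K₀)
    {c : ℝ≥0∞} (hc : ∀ n, c ≤ ct s (K n)) : c ≤ ct s K₀ := by
  by_contra hcon
  push Not at hcon
  obtain ⟨W, hW, hKW, hWc⟩ := exists_open hs hcon
  have h1 : ∀ n, ∃ x ∈ K n, x ∉ W := by
    intro n
    by_contra h
    push Not at h
    exact absurd (lt_of_le_of_lt ((hc n).trans (measure_mono h)) hWc) (lt_irrefl _)
  choose x hxK hxW using h1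
  obtain ⟨x₀, -, φ, hφ, hx₀⟩ := hC.tendsto_subseq fun n => hKC n (hxK n)
  have h2 := hlim φ (x ∘ φ) x₀ hφ (fun n => hxK _) hx₀
  have h3 : x₀ ∈ Wᶜ := hW.isClosed_compl.mem_of_tendsto hx₀ (Eventually.of_forall fun n => hxW _)
  exact h3 (hKW h2)

end

end Vale.Agent.P098.H246
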