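import Mathlib

/-! # Regular and singular points of the free boundary -/

open MeasureTheory Set Metric
open scoped ContDiff RealInnerProductSpace

namespace Vale.Agent.P098.H246

variable {d : ℕ}

/-- `x` is a regular point of `v`: in a neighbourhood `N` of `x`, `v = max(U, 0)` for a smooth
function `U` with `|∇U| = 1` on `{U = 0}`. So, near a regular free boundary point `x`, the free
boundary is the smooth hypersurface `{U = 0}`, and `v` is smooth up to it from the positive side
with the free boundary condition `|∇v| = 1`. -/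
def IsRegularPoint (v : EuclideanSpace ℝ (Fin d) → ℝ) (x : EuclideanSpace ℝ (Fin d)) : Prop :=
  ∃ (N : Set (EuclideanSpace ℝ (Fin d))) (U : EuclideanSpace ℝ (Fin d) → ℝ),
    IsOpen N ∧ x ∈ N ∧ ContDiffOn ℝ ∞ U N ∧
      (∀ y ∈ N, v y = max (U y) 0) ∧ ∀ y ∈ N, U y = 0 → ‖gradient U y‖ = 1

/-- The singular set of `v`: the points of the free boundary `∂{v > 0}` which are not regular. -/
def singularSet (v : EuclideanSpace ℝ (Fin d) → ℝ) : Set (EuclideanSpace ℝ (Fin d)) :=
  {x | x ∈ frontier {y | 0 < v y} ∧ ¬ IsRegularPoint v x}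

end Vale.Agent.P098.H246
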