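import Vale.Agent.P098.H246.Sing

/-! # Federer's dimension reduction for the singular set of minimizers -/

open MeasureTheory Set Metric Filter
open scoped ContDiff RealInnerProductSpace Topology NNReal ENNReal

namespace Vale.Agent.P098.H246

variable {d : ℕ}

theorem ct_le_hausdorff {X : Type*} [MetricSpace X] [MeasurableSpace X] [BorelSpace X] {s : ℝ}
    (hs : 0 < s) (A : Set X) : ct s A ≤ μH[s] A := by
  rw [Measure.hausdorffMeasure_apply]
  refine le_iSup₂_of_le ⊤ ENNReal.zero_lt_top ?_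
  refine le_iInf₂ fun t ht => le_iInf fun _ => ?_
  simp_rw [gau_eq hs]
  rw [ct_apply hs]
  exact iInf₂_le t ht

/-- The content of a subspace of dimension `< s` vanishes. -/
theorem ct_submodule {s : ℝ} (hs : 0 < s) (V : Submodule ℝ (E d))
    (hV : (Module.finrank ℝ V : ℝ) < s) : ct s (V : Set (E d)) = 0 := by
  refine le_antisymm ((ct_le_hausdorff hs _).trans (le_of_eq ?_)) (zero_le)
  have h1 : dimH (V : Set (E d)) ≤ Module.finrank ℝ V := by
    have h2 : (V : Set (E d)) = range (Subtype.val : V → E d) := Subtype.range_coe.symm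
    rw [h2]
    have h3 : LipschitzWith 1 (Subtype.val : V → E d) := LipschitzWith.subtype_val _
    refine h3.dimH_range_le.trans (le_of_eq ?_)
    exact Real.dimH_univ_eq_finrank V
  have h4 : dimH (V : Set (E d)) < (s.toNNReal : ℝ≥0∞) := by
    refine h1.trans_lt ?_
    have : ((Module.finrank ℝ V : ℕ) : ℝ≥0) < s.toNNReal := by
      rw [← NNReal.coe_lt_coe, Real.coe_toNNReal s hs.le]
      exact_mod_cast hV
    exact_mod_cast this
  have h5 := hausdorffMeasure_of_dimH_lt h4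
  rwa [Real.coe_toNNReal s hs.le] at h5

/-- Blow-up at a point of positive density. -/
theorem blow_density {ε : ℝ} (hgood : Good d ε) (hd : 1 ≤ d) {L : ℝ≥0} {u : E d → ℝ}
    (hu : MinL L u) {s : ℝ} (hs : 0 < s) {A : Set (E d)} (hA : A ⊆ TSg ε u) {x₀ : E d}
    (hx₀ : x₀ ∈ A)
    (hfr : ∃ᶠ r in 𝓝[>] (0 : ℝ), ENNReal.ofReal r ^ s ≤ 2 * ct s (A ∩ closedBall x₀ r)) :
    ∃ (r : ℕ → ℝ) (v : E d → ℝ), (∀ n, 0 < r n) ∧ Tendsto r atTop (𝓝 0) ∧ MinL L v ∧ Hom1 v ∧
      (∀ x, Tendsto (fun n => resc u x₀ (r n) x) atTop (𝓝 (v x))) ∧ ct s (TSg ε v) ≠ 0 := by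
  have hu0 : u x₀ = 0 := hu.zero_of_frontier (hA hx₀).1
  obtain ⟨ρ, hρlim, hρ⟩ := exists_seq_forall_of_frequently
    (hfr.and_eventually (self_mem_nhdsWithin (a := (0 : ℝ)) (s := Ioi 0)))
  have hρ0 : Tendsto ρ atTop (𝓝 0) := hρlim.mono_right nhdsWithin_le_nhds
  obtain ⟨φ, hφ, v, hv, hvh, hlim⟩ := blow_up hd hu hu0 (fun n => (hρ n).2) hρ0
  refine ⟨ρ ∘ φ, v, fun n => (hρ _).2, hρ0.comp hφ.tendsto_atTop, hv, hvh, hlim, ?_⟩
  have hhalf : ∀ n, (2 : ℝ≥0∞)⁻¹ ≤
      ct s (TSg ε (resc u x₀ (ρ (φ n))) ∩ closedBall (0 : E d) 1) := by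
    intro n
    set r := ρ (φ n) with hr
    have hr0 : 0 < r := (hρ _).2
    have h1 := (hρ (φ n)).1
    rw [← hr] at h1
    set K := TSg ε (resc u x₀ r) ∩ closedBall (0 : E d) 1 with hK
    have hsub : A ∩ closedBall x₀ r ⊆ (fun z => x₀ + r • z) '' K := by
      rintro x ⟨hxA, hxr⟩
      have e1 : x₀ + r • (r⁻¹ • (x - x₀)) = x := by
        rw [smul_smul, mul_inv_cancel₀ hr0.ne', one_smul, add_sub_cancel]
      refine ⟨r⁻¹ • (x - x₀), ⟨?_, ?_⟩, e1⟩
      · rw [mem_tsg_resc hr0, e1]; exact hA hxA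
      · rw [mem_closedBall_zero_iff, norm_smul, norm_inv, Real.norm_eq_abs, abs_of_pos hr0]
        rw [mem_closedBall, dist_eq_norm] at hxr
        rw [inv_mul_le_iff₀ hr0, mul_one]
        exact hxr
    have hlip : LipschitzWith r.toNNReal (fun z : E d => x₀ + r • z) := by
      refine LipschitzWith.of_dist_le_mul fun z z' => ?_
      rw [dist_add_left, dist_smul₀, Real.norm_eq_abs, abs_of_pos hr0, Real.coe_toNNReal r hr0.le]
    have hK0 : r.toNNReal ≠ 0 := (Real.toNNReal_pos.2 hr0).ne'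
    have h2 : ct s (A ∩ closedBall x₀ r) ≤ ENNReal.ofReal r ^ s * ct s K := by
      exact (measure_mono hsub).trans (ct_image_le hs hK0 hlip K)
    have h3 : ENNReal.ofReal r ^ s * 1 ≤ ENNReal.ofReal r ^ s * (2 * ct s K) := by
      rw [mul_one]
      calc ENNReal.ofReal r ^ s ≤ 2 * ct s (A ∩ closedBall x₀ r) := h1
        _ ≤ 2 * (ENNReal.ofReal r ^ s * ct s K) := by gcongr
        _ = _ := by ring
    have h4 : (1 : ℝ≥0∞) ≤ 2 * ct s K := by
      refine (ENNReal.mul_le_mul_iff_right ?_ ?_).1 h3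
      · exact (ENNReal.rpow_pos (ENNReal.ofReal_pos.2 hr0) ENNReal.ofReal_ne_top).ne'
      · exact ENNReal.rpow_ne_top_of_nonneg hs.le ENNReal.ofReal_ne_top
    rw [← ENNReal.div_le_iff' (by norm_num) (by norm_num), one_div] at h4
    exact h4
  have key : (2 : ℝ≥0∞)⁻¹ ≤ ct s (TSg ε v ∩ closedBall (0 : E d) 1) := by
    refine ct_limit hs (isCompact_closedBall (0 : E d) 1)
      (K := fun n => TSg ε (resc u x₀ (ρ (φ n))) ∩ closedBall (0 : E d) 1)
      (K₀ := TSg ε v ∩ closedBall (0 : E d) 1)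
      (fun n => inter_subset_right) (fun ψ x y hψ hx hlimx => ⟨?_, ?_⟩) hhalf
    · exact tsg_limit hgood hd (f := fun n => resc u x₀ (ρ (φ (ψ n))))
        (fun n => hu.resc x₀ (hρ _).2) (fun z => (hlim z).comp hψ.tendsto_atTop) hlimx
        fun n => (hx n).1
    · exact isClosed_closedBall.mem_of_tendsto hlimx (Eventually.of_forall fun n => (hx n).2)
  intro h0
  have h1 : ct s (TSg ε v ∩ closedBall (0 : E d) 1) ≤ ct s (TSg ε v) :=
    measure_mono inter_subset_left
  rw [h0] at h1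
  have := key.trans h1
  simp at this

/-- **Dimension reduction**: cones with more and more invariant directions. -/
theorem reduction_step {ε : ℝ} (hgood : Good d ε) (hd : 1 ≤ d) {L : ℝ≥0} {u : E d → ℝ}
    (hu : MinL L u) {s : ℝ} (hs : 0 < s) (hne : ct s (TSg ε u) ≠ 0) :
    ∀ k : ℕ, (k : ℝ) - 1 < s → ∃ (v : E d → ℝ) (V : Submodule ℝ (E d)), MinL L v ∧ Hom1 v ∧
      k ≤ Module.finrank ℝ V ∧ (∀ y ∈ V, ∀ x, v (x + y) = v x) ∧ ct s (TSg ε v) ≠ 0 := by
  intro k
  induction k with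
  | zero =>
    intro _
    obtain ⟨x₀, hx₀, hfr⟩ := density hs hne
    obtain ⟨r, v, -, -, hv, hvh, -, h⟩ := blow_density hgood hd hu hs Subset.rfl hx₀ hfr
    refine ⟨v, ⊥, hv, hvh, Nat.zero_le _, fun y hy x => ?_, h⟩
    rw [(Submodule.mem_bot ℝ).1 hy, add_zero]
  | succ k ih =>
    intro hk
    push_cast at hk
    obtain ⟨v, V, hv, hvh, hVk, hinv, hvs⟩ := ih (by linarith)
    by_cases hV : k + 1 ≤ Module.finrank ℝ V
    · exact ⟨v, V, hv, hvh, hV, hinv, hvs⟩
    have hVk' : Module.finrank ℝ V = k := by omega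
    have hV0 : ct s (V : Set (E d)) = 0 := ct_submodule hs V (by rw [hVk']; linarith)
    have hA : ct s (TSg ε v \ V) ≠ 0 := by
      intro h0
      refine hvs (le_antisymm ?_ (zero_le))
      calc ct s (TSg ε v) ≤ ct s ((TSg ε v \ V) ∪ V) := measure_mono (by
            intro x hx
            by_cases hxV : x ∈ (V : Set (E d))
            · exact Or.inr hxV
            · exact Or.inl ⟨hx, hxV⟩)
        _ ≤ ct s (TSg ε v \ V) + ct s (V : Set (E d)) := measure_union_le _ _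
        _ = 0 := by rw [h0, hV0, add_zero]
    obtain ⟨y₀, hy₀, hfr⟩ := density hs hA
    obtain ⟨r, v', hr, hr0, hv', hvh', hlim, h⟩ := blow_density hgood hd hv hs sdiff_subset hy₀ hfr
    have hinvV : ∀ y ∈ V, ∀ x, v' (x + y) = v' x := by
      intro y hy x
      refine tendsto_nhds_unique (hlim (x + y)) ((hlim x).congr fun n => ?_)
      simp only [resc]
      rw [smul_add, ← add_assoc, hinv _ (V.smul_mem _ hy)]
    have hinvy : ∀ x (t : ℝ), v' (x + t • y₀) = v' x :=
      fun x t => rM12_inv hv.lip hvh hr hr0 hlim x t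
    refine ⟨v', V ⊔ Submodule.span ℝ {y₀}, hv', hvh', ?_, ?_, h⟩
    · have hlt : V < V ⊔ Submodule.span ℝ {y₀} := by
        refine lt_of_le_of_ne le_sup_left fun heq => hy₀.2 ?_
        have : y₀ ∈ V ⊔ Submodule.span ℝ {y₀} :=
          Submodule.mem_sup_right (Submodule.mem_span_singleton_self y₀)
        rw [← heq] at this
        exact this
      have := Submodule.finrank_lt_finrank_of_lt hlt
      omega
    · intro y hy x
      obtain ⟨y1, hy1, y2, hy2, rfl⟩ := Submodule.mem_sup.1 hy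
      obtain ⟨t, rfl⟩ := Submodule.mem_span_singleton.1 hy2
      rw [← add_assoc, hinvy, hinvV y1 hy1]

/-- Minimizing cones with an `m`-dimensional space of invariance in dimension `6 + m` are flat. -/
theorem flat_inv (m : ℕ) : ∀ (L : ℝ≥0) (v : E (6 + m) → ℝ) (V : Submodule ℝ (E (6 + m))),
    MinL L v → Hom1 v → (∀ y ∈ V, ∀ x, v (x + y) = v x) → m ≤ Module.finrank ℝ V →
    (∀ x, v x = 0) ∨ ∃ e : E (6 + m), ‖e‖ = 1 ∧ ∀ x, v x = max ⟪x, e⟫ 0 := by
  induction m with
  | zero => exact fun L v V hv hvh _ _ => H709.FL_six 6 (by norm_num) le_rfl L v hv hvh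
  | succ m ih =>
    show ∀ (L : ℝ≥0) (v : E (6 + m + 1) → ℝ) (V : Submodule ℝ (E (6 + m + 1))),
      MinL L v → Hom1 v → (∀ y ∈ V, ∀ x, v (x + y) = v x) → m + 1 ≤ Module.finrank ℝ V →
      (∀ x, v x = 0) ∨ ∃ e : E (6 + m + 1), ‖e‖ = 1 ∧ ∀ x, v x = max ⟪x, e⟫ 0
    intro L v V hv hvh hinv hV
    obtain ⟨y, hy, hy0⟩ : ∃ y ∈ V, y ≠ 0 := by
      by_contra hcon
      push Not at hcon
      have : V = ⊥ := (Submodule.eq_bot_iff V).2 hcon
      rw [this, finrank_bot] at hV
      omega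
    have hyn : ‖y‖ ≠ 0 := norm_ne_zero_iff.2 hy0
    set e : E (6 + m + 1) := ‖y‖⁻¹ • y with he_def
    have he : ‖e‖ = 1 := by
      rw [he_def, norm_smul, norm_inv, norm_norm, inv_mul_cancel₀ hyn]
    have heV : ∀ t : ℝ, t • e ∈ V := fun t => V.smul_mem _ (V.smul_mem _ hy)
    obtain ⟨ι, hι, hdec, hw⟩ := slice (n := 6 + m) hv he fun x t => hinv _ (heV t) x
    have hwh : Hom1 (fun y => v (ι y)) := fun a ha y => by
      show v (ι (a • y)) = a * v (ι y)
      rw [map_smul]; exact hvh a ha _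
    have hvι : ∀ x, ∃ y, x = ι y + ⟪x, e⟫ • e ∧ v x = v (ι y) := fun x => by
      obtain ⟨y, hy⟩ := hdec x
      refine ⟨y, hy, ?_⟩
      conv_lhs => rw [hy]
      exact hinv _ (heV _) _
    have hrank : m ≤ Module.finrank ℝ (V.comap ι.toLinearMap) := by
      have h1 : Module.finrank ℝ ((V.comap ι.toLinearMap).map ι.toLinearMap) ≤
          Module.finrank ℝ (V.comap ι.toLinearMap) := Submodule.finrank_map_le _ _
      rw [Submodule.map_comap_eq] at h1
      have h2 := Submodule.finrank_sup_add_finrank_inf_eq (LinearMap.range ι.toLinearMap) V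
      have h3 : Module.finrank ℝ (LinearMap.range ι.toLinearMap) = 6 + m := by
        rw [LinearMap.finrank_range_of_inj ι.injective]
        simp
      have h4 : Module.finrank ℝ (↥(LinearMap.range ι.toLinearMap ⊔ V)) ≤ 6 + m + 1 := by
        have := Submodule.finrank_le (LinearMap.range ι.toLinearMap ⊔ V)
        simpa using this
      omega
    rcases ih L _ (V.comap ι.toLinearMap) hw hwh (fun y hy x => by
        show v (ι (x + y)) = v (ι x)
        rw [map_add]; exact hinv _ hy _) hrank with h0 | ⟨f, hf1, hwf⟩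
    · left
      intro x
      obtain ⟨y, -, h⟩ := hvι x
      rw [h]; exact h0 y
    · right
      refine ⟨ι f, by rw [LinearIsometry.norm_map]; exact hf1, fun x => ?_⟩
      obtain ⟨y, hy, h⟩ := hvι x
      rw [h]
      have h1 : v (ι y) = max ⟪y, f⟫ 0 := hwf y
      rw [h1]
      have h2 : ⟪x, ι f⟫ = ⟪y, f⟫ := by
        rw [hy, inner_add_left, inner_smul_left, real_inner_comm (ι f) e, hι f,
          LinearIsometry.inner_map_map]
        simp
      rw [h2]

/-- The singular set in dimension at least seven has vanishing content above `d - 7`. -/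
theorem ct_tsg {m : ℕ} {ε : ℝ} (hgood : Good (6 + m) ε) {L : ℝ≥0}
    {u : E (6 + m) → ℝ} (hu : MinL L u) {s : ℝ} (hs : 0 < s) (hms : (m : ℝ) - 1 < s) :
    ct s (TSg ε u) = 0 := by
  by_contra hne
  obtain ⟨v, V, hv, hvh, hV, hinv, h⟩ := reduction_step hgood (by omega) hu hs hne m hms
  rw [tsg_flat hgood.1 (flat_inv m L v V hv hvh hinv hV)] at h
  exact h (measure_empty)

/-- **The singular set has dimension at most `d - 7`.** -/
theorem dimH_tsg_le {m : ℕ} {ε : ℝ} (hgood : Good (6 + (m + 1)) ε) {L : ℝ≥0}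
    {u : E (6 + (m + 1)) → ℝ} (hu : MinL L u) : dimH (TSg ε u) ≤ m := by
  refine ENNReal.le_of_forall_nnreal_lt fun s hs => ?_
  by_contra hcon
  push Not at hcon
  have hs' : (m : ℝ) < s := by
    have : ((m : ℝ≥0) : ℝ≥0∞) < s := by exact_mod_cast hcon
    have h2 : (m : ℝ≥0) < s := by exact_mod_cast this
    exact_mod_cast h2
  have hs0 : (0 : ℝ) < s := lt_of_le_of_lt (Nat.cast_nonneg m) hs'
  have h0 : ct (s : ℝ) (TSg ε u) = 0 := ct_tsg hgood hu hs0 (by push_cast; linarith)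
  have h1 : μH[(s : ℝ)] (TSg ε u) = 0 := hausdorff_zero hs0 h0
  rw [hausdorffMeasure_of_lt_dimH hs] at h1
  exact ENNReal.top_ne_zero h1

/-- No singular points in dimension at most six. -/
theorem tsg_low {ε : ℝ} (hgood : Good d ε) (hd : 1 ≤ d) (h6 : d ≤ 6) {L : ℝ≥0}
    {u : E d → ℝ} (hu : MinL L u) : TSg ε u = ∅ := by
  rw [eq_empty_iff_forall_notMem]
  intro x hx
  have hu0 : u x = 0 := hu.zero_of_frontier hx.1
  obtain ⟨φ, hφ, v, hv, hvh, hlim⟩ := blow_up hd hu hu0 (r := fun n : ℕ => 1 / ((n : ℝ) + 1))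
    (fun n => by positivity) tendsto_one_div_add_atTop_nhds_zero_nat
  have hr : ∀ n, (0 : ℝ) < 1 / ((φ n : ℝ) + 1) := fun n => by positivity
  have h0 : (0 : E d) ∈ TSg ε v := by
    refine tsg_limit hgood hd (f := fun n => resc u x (1 / ((φ n : ℝ) + 1)))
      (fun n => hu.resc x (hr n)) hlim (tendsto_const_nhds (x := (0 : E d))) fun n => ?_
    rw [mem_tsg_resc (hr n), smul_zero, add_zero]
    exact hx
  rw [tsg_flat hgood.1 (H709.FL_six d hd h6 L v hv hvh)] at h0
  exact h0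

/-- In dimension seven the singular set is locally finite. -/
theorem tsg_seven {ε : ℝ} (hgood : Good 7 ε) {L : ℝ≥0} {u : E 7 → ℝ} (hu : MinL L u)
    {K : Set (E 7)} (hK : IsCompact K) : (TSg ε u ∩ K).Finite := by
  by_contra hinf
  have hinf' : (TSg ε u ∩ K).Infinite := hinf
  obtain ⟨x₀, hx₀K, hacc⟩ := hinf'.exists_accPt_of_subset_isCompact hK inter_subset_right
  rw [accPt_iff_frequently] at hacc
  obtain ⟨x, hxlim, hx⟩ := exists_seq_forall_of_frequently hacc
  have hx₀ : x₀ ∈ TSg ε u :=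
    (isClosed_tsg hgood (by norm_num) hu).mem_of_tendsto hxlim
      (Eventually.of_forall fun n => (hx n).2.1)
  have hu0 : u x₀ = 0 := hu.zero_of_frontier hx₀.1
  set r : ℕ → ℝ := fun n => ‖x n - x₀‖ with hr
  have hr0 : ∀ n, 0 < r n := fun n => norm_pos_iff.2 (sub_ne_zero.2 (hx n).1)
  have hrlim : Tendsto r atTop (𝓝 0) := by
    have := (tendsto_iff_norm_sub_tendsto_zero.1 hxlim)
    exact this
  obtain ⟨φ, hφ, v, hv, hvh, hlim⟩ := blow_up (d := 7) (by norm_num) hu hu0 hr0 hrlim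
  set y : ℕ → E 7 := fun n => (r (φ n))⁻¹ • (x (φ n) - x₀) with hy
  have hyn : ∀ n, y n ∈ sphere (0 : E 7) 1 := fun n => by
    rw [mem_sphere_zero_iff_norm, hy]
    simp only
    rw [norm_smul, norm_inv, Real.norm_eq_abs, abs_of_pos (hr0 _)]
    exact inv_mul_cancel₀ (hr0 _).ne'
  obtain ⟨y₀, hy₀, ψ, hψ, hylim⟩ := (isCompact_sphere (0 : E 7) 1).tendsto_subseq hyn
  have h1 : y₀ ∈ TSg ε v := by
    refine tsg_limit hgood (by norm_num) (f := fun n => resc u x₀ (r (φ (ψ n))))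
      (fun n => hu.resc x₀ (hr0 _)) (fun z => (hlim z).comp hψ.tendsto_atTop) hylim fun n => ?_
    rw [mem_tsg_resc (hr0 _)]
    simp only [Function.comp, hy]
    rw [smul_smul, mul_inv_cancel₀ (hr0 _).ne', one_smul, add_sub_cancel]
    exact (hx _).2.1
  have hy0 : y₀ ≠ 0 := by
    rintro rfl
    simp at hy₀
  exact h1.2 (flat_traps (n := 6) (by norm_num) (H709.FL_six 6 (by norm_num) le_rfl) hv hvh h1.1
    hy0 hgood.1)

end Vale.Agent.P098.H246
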