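import Vale.Agent.P098.H246.Defs
import Vale.Agent.P098.H246.Fed

/-! # Assembly: partial regularity, and cones with a space of invariance -/

open MeasureTheory Set Metric Filter
open scoped ContDiff RealInnerProductSpace Topology NNReal ENNReal

namespace Vale.Agent.P098.H246

variable {d : ℕ}

theorem singularSet_eq {ε : ℝ} (hgood : Good d ε) {L : ℝ≥0} {v : E d → ℝ} (hv : MinL L v) :
    singularSet v = TSg ε v := by
  ext x
  constructor
  · rintro ⟨h1, h2⟩
    exact ⟨h1, fun h => h2 (hgood.2 L v x hv h1 h)⟩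
  · rintro ⟨h1, h2⟩
    exact ⟨h1, fun h => h2 (Reg.trap hv h1 h hgood.1)⟩

/-- **Partial regularity** of global minimizers. -/
theorem partial_regularity (hd : 1 ≤ d) (u : E d → ℝ) (hu : IsGlobalMinimizer u) :
    ∃ v : E d → ℝ, Continuous v ∧ u =ᵐ[volume] v ∧ IsClosed (singularSet v) ∧
      (d ≤ 6 → singularSet v = ∅) ∧
      (d = 7 → ∀ K : Set (E d), IsCompact K → (singularSet v ∩ K).Finite) ∧
      dimH (singularSet v) ≤ ((d - 7 : ℕ) : ℝ≥0∞) := by
  obtain ⟨L, v, hv, huv, -⟩ := H709.exists_minL hd hu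
  obtain ⟨ε, hgood⟩ := exists_good hd
  have hS := singularSet_eq hgood hv
  refine ⟨v, hv.lip.continuous, huv, ?_, fun h6 => ?_, fun h7 K hK => ?_, ?_⟩
  · rw [hS]; exact isClosed_tsg hgood hd hv
  · rw [hS]; exact tsg_low hgood hd h6 hv
  · subst h7
    rw [hS]; exact tsg_seven hgood hv hK
  · rcases le_or_gt d 6 with h6 | h6
    · rw [hS, tsg_low hgood hd h6 hv, dimH_empty]
      exact zero_le
    · obtain ⟨m, rfl⟩ : ∃ m, d = 6 + (m + 1) := ⟨d - 7, by omega⟩
      have : 6 + (m + 1) - 7 = m := by omega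
      rw [hS, this]
      exact dimH_tsg_le hgood hv

/-- One-homogeneous global minimizers on `ℝᵈ` which are invariant under the translations of a
subspace of dimension at least `d - 6` are flat. -/
theorem flat_of_invariant (hd : 1 ≤ d) (u : E d → ℝ) (hu : IsGlobalMinimizer u)
    (hh : IsOneHomogeneous u) (V : Submodule ℝ (E d))
    (hV : ∀ y ∈ V, ∀ᵐ x, u (x + y) = u x) (hdim : d ≤ Module.finrank ℝ V + 6) :
    (u =ᵐ[volume] (fun _ => 0)) ∨ ∃ e : E d, ‖e‖ = 1 ∧ u =ᵐ[volume] fun x => max ⟪x, e⟫ 0 := by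
  rcases le_or_gt d 6 with h6 | h6
  · exact flat_le_six hd h6 u hu hh
  · obtain ⟨m, rfl⟩ : ∃ m, d = 6 + m := ⟨d - 6, by omega⟩
    obtain ⟨v, K, hK, huv, hv, hhv, h0⟩ := exists_lipschitz_rep (by omega) hu hh
    have hm : MinL K v := ⟨hK, h0, lipMin_of_isGlobalMinimizer hK hv⟩
    have hinv : ∀ y ∈ V, ∀ x, v (x + y) = v x := by
      intro y hy
      have h1 : (fun x => v (x + y)) =ᵐ[volume] v := by
        have h2 : (fun x => u (x + y)) =ᵐ[volume] fun x => v (x + y) :=
          (measurePreserving_add_right volume y).quasiMeasurePreserving.ae_eq_comp huv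
        exact h2.symm.trans (EventuallyEq.trans (hV y hy) huv)
      have h3 := (Continuous.ae_eq_iff_eq volume
        (hK.continuous.comp (continuous_id.add continuous_const)) hK.continuous).1 h1
      exact fun x => congrFun h3 x
    rcases flat_inv m K v V hm hhv hinv (by omega) with h | ⟨e, he, h⟩
    · left
      filter_upwards [huv] with x hx
      rw [hx, h]
    · right
      refine ⟨e, he, ?_⟩
      filter_upwards [huv] with x hx
      rw [hx, h]

end Vale.Agent.P098.H246
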