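import Vale.Agent.P098.H709.Liou
import Vale.Agent.P098.H246.Content

/-! # Regular and singular points of the free boundary: characterisation and stability -/

open MeasureTheory Set Metric Filter
open scoped ContDiff RealInnerProductSpace Topology NNReal

namespace Vale.Agent.P098.H246

variable {d : ℕ}

/-- `u` is `ε`-flat at some scale at `x`. -/
def TReg (ε : ℝ) (u : E d → ℝ) (x : E d) : Prop :=
  ∃ (r : ℝ) (e : E d), 0 < r ∧ ‖e‖ = 1 ∧ Trap (resc u x r) (fun z => ⟪z, e⟫) (-ε) ε 0 1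

/-- The free boundary points at which `u` is not `ε`-flat at any scale. -/
def TSg (ε : ℝ) (u : E d → ℝ) : Set (E d) := {x | x ∈ frontier (pos u) ∧ ¬ TReg ε u x}

/-- Near `x`, `u` is the positive part of a smooth function `U` with `|∇U| = 1` on `{U = 0}`. -/
def Reg (u : E d → ℝ) (x : E d) : Prop :=
  ∃ (N : Set (E d)) (U : E d → ℝ), IsOpen N ∧ x ∈ N ∧ ContDiffOn ℝ ∞ U N ∧
    (∀ y ∈ N, u y = max (U y) 0) ∧ ∀ y ∈ N, U y = 0 → ‖gradient U y‖ = 1

/-- `ε`-flat points are regular. -/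
def Good (d : ℕ) (ε : ℝ) : Prop := 0 < ε ∧ ∀ (L : ℝ≥0) (u : E d → ℝ) (x : E d), MinL L u →
  x ∈ frontier (pos u) → TReg ε u x → Reg u x

theorem norm_gradient (f : E d → ℝ) (x : E d) : ‖gradient f x‖ = ‖fderiv ℝ f x‖ := by
  rw [gradient]
  exact (InnerProductSpace.toDual ℝ (E d)).symm.norm_map _

/-- The local extension at a flat point. -/
theorem loc_ext (n : ℕ) : ∃ ε₀ : ℝ, 0 < ε₀ ∧ ∀ (L : ℝ≥0) (u : E (n + 1) → ℝ) (x₀ : E (n + 1)),
    MinL L u → x₀ ∈ frontier (pos u) → TReg ε₀ u x₀ →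
    ∃ (N : Set (E (n + 1))) (U : E (n + 1) → ℝ), IsOpen N ∧ x₀ ∈ N ∧ ContDiffOn ℝ ∞ U N ∧
      (∀ x ∈ N, 0 < u x → U x = u x) ∧ (∀ x ∈ N, 0 < U x ↔ 0 < u x) ∧
      ∀ x ∈ N, x ∈ frontier (pos u) → ‖gradient U x‖ = 1 := by
  obtain ⟨ε₀, hε₀, hloc⟩ := local_extension n
  refine ⟨ε₀, hε₀, fun L u x₀ hu hx₀ ⟨r, e, hr, he, htrap⟩ => ?_⟩
  obtain ⟨Φ, hΦ⟩ := exists_isometry he
  have hw : MinL L (fun x => resc u x₀ r (Φ x)) := (hu.resc x₀ hr).isometry Φ
  have h0 : (0 : E (n + 1)) ∈ frontier (pos (fun x => resc u x₀ r (Φ x))) := by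
    rw [mem_frontier_isometry, mem_frontier_resc hr]
    simpa using hx₀
  have hT : Trap (fun x => resc u x₀ r (Φ x)) (fun x => x 0) (-ε₀) ε₀ 0 1 := by
    intro x hx
    have hx' : Φ x ∈ ball (0 : E (n + 1)) 1 := by
      simpa using hx
    have h1 := htrap (Φ x) hx'
    have h2 : ⟪Φ x, e⟫ = x 0 := by
      rw [← hΦ, LinearIsometryEquiv.inner_map_map]
      simp [ee, EuclideanSpace.inner_single_right]
    simp only at h1
    rw [h2] at h1
    exact h1
  obtain ⟨N', U', hN', h0N', hU', hUu', hiff', hgr'⟩ := hloc L _ hw h0 hT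
  let T : E (n + 1) → E (n + 1) := fun z => Φ.symm (r⁻¹ • (z - x₀))
  have hTc : ContDiff ℝ ∞ T := by
    apply ContDiff.comp (g := Φ.symm)
    · exact Φ.symm.contDiff
    · fun_prop
  have hwT : ∀ z, resc u x₀ r (Φ (T z)) = u z / r := by
    intro z
    simp only [T, resc, LinearIsometryEquiv.apply_symm_apply]
    rw [smul_smul, mul_inv_cancel₀ hr.ne', one_smul]
    congr 2
    abel
  have hfr : ∀ z, z ∈ frontier (pos u) ↔ T z ∈ frontier (pos (fun x => resc u x₀ r (Φ x))) := by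
    intro z
    rw [mem_frontier_isometry, mem_frontier_resc hr]
    simp only [T, LinearIsometryEquiv.apply_symm_apply]
    rw [smul_smul, mul_inv_cancel₀ hr.ne', one_smul]
    rw [add_sub_cancel]
  refine ⟨T ⁻¹' N', fun z => r * U' (T z), hN'.preimage hTc.continuous, ?_, ?_, ?_, ?_, ?_⟩
  · simpa [T] using h0N'
  · apply ContDiffOn.mul contDiffOn_const
    exact hU'.comp hTc.contDiffOn (fun z hz => hz)
  · intro z hz hz0
    have h1 : 0 < resc u x₀ r (Φ (T z)) := by
      rw [hwT]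
      positivity
    have h2 : U' (T z) = resc u x₀ r (Φ (T z)) := hUu' (T z) hz h1
    change r * U' (T z) = u z
    rw [h2, hwT]
    field_simp
  · intro z hz
    have h1 := hiff' (T z) hz
    rw [hwT] at h1
    change 0 < r * U' (T z) ↔ 0 < u z
    rw [mul_pos_iff_of_pos_left hr, h1]
    exact div_pos_iff_of_pos_right hr
  · intro z hz hzf
    have h1 := hgr' (T z) hz ((hfr z).1 hzf)
    rw [norm_gradient] at h1 ⊢
    have hd1 : HasFDerivAt U' (fderiv ℝ U' (T z)) (T z) := by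
      have := (hU'.contDiffAt (hN'.mem_nhds hz)).differentiableAt (by simp)
      exact this.hasFDerivAt
    have hdT : HasFDerivAt T (r⁻¹ • (Φ.symm : E (n + 1) →L[ℝ] E (n + 1))) z := by
      have h3 : HasFDerivAt (fun z : E (n + 1) => r⁻¹ • (z - x₀))
          (r⁻¹ • ContinuousLinearMap.id ℝ (E (n + 1))) z :=
        ((hasFDerivAt_id z).sub_const x₀).const_smul r⁻¹
      have h4 : HasFDerivAt (Φ.symm : E (n + 1) → E (n + 1))
          (Φ.symm : E (n + 1) →L[ℝ] E (n + 1)) (r⁻¹ • (z - x₀)) :=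
        (Φ.symm : E (n + 1) →L[ℝ] E (n + 1)).hasFDerivAt
      have h5 : HasFDerivAt T ((Φ.symm : E (n + 1) →L[ℝ] E (n + 1)).comp
          (r⁻¹ • ContinuousLinearMap.id ℝ (E (n + 1)))) z := h4.comp z h3
      have h6 : (Φ.symm : E (n + 1) →L[ℝ] E (n + 1)).comp
          (r⁻¹ • ContinuousLinearMap.id ℝ (E (n + 1))) =
          r⁻¹ • (Φ.symm : E (n + 1) →L[ℝ] E (n + 1)) := by
        ext v
        simp
      rw [← h6]
      exact h5
    have hd := (hd1.comp z hdT).const_mul r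
    have hd' : fderiv ℝ (fun z => r * U' (T z)) z
        = (fderiv ℝ U' (T z)).comp (Φ.symm : E (n + 1) →L[ℝ] E (n + 1)) := by
      rw [show (fun z => r * U' (T z)) = (fun z => r * (U' ∘ T) z) from rfl, hd.fderiv]
      ext v
      simp
      field_simp
    rw [hd']
    have h6 : ‖(fderiv ℝ U' (T z)).comp (Φ.symm : E (n + 1) →L[ℝ] E (n + 1))‖
        = ‖fderiv ℝ U' (T z)‖ := by
      exact ContinuousLinearMap.opNorm_comp_linearIsometryEquiv _ Φ.symm
    rw [h6, h1]

theorem exists_good (hd : 1 ≤ d) : ∃ ε, Good d ε := by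
  obtain ⟨n, rfl⟩ : ∃ n, d = n + 1 := ⟨d - 1, by omega⟩
  obtain ⟨ε, hε, h⟩ := loc_ext n
  refine ⟨ε, hε, fun L u x hu hx hT => ?_⟩
  obtain ⟨N, U, hN, hxN, hU, hUu, hiff, hg⟩ := h L u x hu hx hT
  have hcont : ContinuousOn (fderiv ℝ U) N := by
    refine hU.continuousOn_fderiv_of_isOpen hN ?_
    simp
  refine ⟨N ∩ fderiv ℝ U ⁻¹' {0}ᶜ, U, hcont.isOpen_inter_preimage hN isOpen_compl_singleton,
    ⟨hxN, ?_⟩, hU.mono inter_subset_left, fun y hy => ?_, fun y hy hy0 => ?_⟩
  · show fderiv ℝ U x ≠ 0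
    intro h0
    have := hg x hxN hx
    rw [norm_gradient, h0, norm_zero] at this
    exact zero_ne_one this
  · rcases (hu.nonneg y).eq_or_lt with h0 | h0
    · rw [← h0, eq_comm]
      refine max_eq_right (not_lt.1 fun h1 => ?_)
      exact ((hiff y hy.1).1 h1).ne h0
    · rw [hUu y hy.1 h0, max_eq_left h0.le]
  · refine hg y hy.1 ?_
    have huy : ¬ 0 < u y := fun h1 => by
      have := (hiff y hy.1).2 h1
      exact this.ne' hy0
    rw [frontier, hu.isOpen_pos.interior_eq]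
    refine ⟨?_, huy⟩
    -- a direction in which `U` increases
    obtain ⟨v, hv⟩ : ∃ v, 0 < fderiv ℝ U y v := by
      by_contra hcon
      push Not at hcon
      refine hy.2 ?_
      ext v
      have h1 := hcon v
      have h2 := hcon (-v)
      rw [map_neg] at h2
      simp only [zero_apply]
      linarith
    have hdiff : HasFDerivAt U (fderiv ℝ U y) y :=
      ((hU.contDiffAt (hN.mem_nhds hy.1)).differentiableAt (by simp)).hasFDerivAt
    have hline : HasDerivAt (fun t : ℝ => U (y + t • v)) (fderiv ℝ U y v) 0 := by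
      have h1 : HasDerivAt (fun t : ℝ => y + t • v) v 0 := by
        simpa using ((hasDerivAt_id (0 : ℝ)).smul_const v).const_add y
      have h2 : HasFDerivAt U (fderiv ℝ U y) (y + (0 : ℝ) • v) := by simpa using hdiff
      exact h2.comp_hasDerivAt 0 h1
    have hpos : ∀ᶠ t in 𝓝[>] (0 : ℝ), 0 < U (y + t • v) := by
      have h1 := hline.tendsto_slope_zero_right
      have h2 := h1.eventually (lt_mem_nhds hv)
      filter_upwards [h2, self_mem_nhdsWithin] with t ht ht0
      simp only [zero_add, zero_smul, add_zero, hy0, sub_zero, smul_eq_mul] at ht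
      exact (pos_iff_pos_of_mul_pos ht).1 (inv_pos.2 ht0)
    have htend : Tendsto (fun t : ℝ => y + t • v) (𝓝[>] 0) (𝓝 y) := by
      have : Tendsto (fun t : ℝ => y + t • v) (𝓝 0) (𝓝 (y + (0 : ℝ) • v)) :=
        (continuous_const.add (continuous_id.smul continuous_const)).tendsto 0
      rw [zero_smul, add_zero] at this
      exact this.mono_left nhdsWithin_le_nhds
    refine mem_closure_of_tendsto htend ?_
    filter_upwards [hpos, htend.eventually (hN.mem_nhds hy.1)] with t ht htN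
    exact (hiff _ htN).1 ht

/-- Regular points are flat at small scales. -/
theorem Reg.trap {L : ℝ≥0} {u : E d → ℝ} (hu : MinL L u) {x₀ : E d} (hx : x₀ ∈ frontier (pos u))
    (h : Reg u x₀) {ε : ℝ} (hε : 0 < ε) : TReg ε u x₀ := by
  obtain ⟨N, U, hN, hxN, hU, hUu, hg⟩ := h
  have hUc : ContinuousAt U x₀ := (hU.contDiffAt (hN.mem_nhds hxN)).continuousAt
  have hu0 := hu.zero_of_frontier hx
  have hU0 : U x₀ = 0 := by
    refine le_antisymm ?_ (not_lt.1 fun hlt => ?_)
    · have := hUu x₀ hxN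
      rw [hu0] at this
      exact (le_max_left _ _).trans this.ge
    · have h1 : ∀ᶠ y in 𝓝 x₀, U y < 0 ∧ y ∈ N :=
        (hUc.eventually (gt_mem_nhds hlt)).and (hN.mem_nhds hxN)
      have h2 := frontier_subset_closure hx
      rw [mem_closure_iff_frequently] at h2
      obtain ⟨y, hy, hy1, hy2⟩ := (h2.and_eventually h1).exists
      have h3 : 0 < u y := hy
      rw [hUu y hy2, max_eq_right hy1.le] at h3
      exact lt_irrefl _ h3
  have hdiff : HasFDerivAt U (fderiv ℝ U x₀) x₀ :=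
    ((hU.contDiffAt (hN.mem_nhds hxN)).differentiableAt (by simp)).hasFDerivAt
  set e : E d := gradient U x₀ with he
  have hfe : ∀ z, fderiv ℝ U x₀ z = ⟪z, e⟫ := by
    intro z
    rw [he, gradient, real_inner_comm, InnerProductSpace.toDual_symm_apply]
  have hlit := (hasFDerivAt_iff_isLittleO.1 hdiff).def hε
  obtain ⟨δ, hδ, hball⟩ := Metric.eventually_nhds_iff.1 (hlit.and (hN.mem_nhds hxN))
  refine ⟨δ / 2, e, by positivity, hg x₀ hxN hU0, fun z hz => ?_⟩
  rw [mem_ball_zero_iff] at hz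
  set r : ℝ := δ / 2 with hr
  have hr0 : 0 < r := by positivity
  have hdist : dist (x₀ + r • z) x₀ < δ := by
    rw [dist_eq_norm, add_sub_cancel_left, norm_smul, Real.norm_eq_abs, abs_of_pos hr0]
    nlinarith [norm_nonneg z]
  obtain ⟨h1, h2⟩ := hball hdist
  rw [hU0, sub_zero, add_sub_cancel_left, map_smul, hfe, smul_eq_mul, norm_smul, Real.norm_eq_abs,
    Real.norm_eq_abs, abs_of_pos hr0] at h1
  have h3 : ε * (r * ‖z‖) ≤ ε * r := by
    have : r * ‖z‖ ≤ r := by nlinarith [norm_nonneg z]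
    exact mul_le_mul_of_nonneg_left this hε.le
  have h4 := abs_le.1 (h1.trans h3)
  have h5 : resc u x₀ r z = max (U (x₀ + r • z)) 0 / r := by
    rw [resc, hUu _ h2]
  constructor
  · rw [h5, le_div_iff₀ hr0]
    rcases le_total (⟪z, e⟫ + -ε) 0 with h | h
    · rw [max_eq_right h, zero_mul]; exact le_max_right _ _
    · rw [max_eq_left h]
      refine le_max_of_le_left ?_
      nlinarith [h4.1]
  · rw [h5, div_le_iff₀ hr0]
    refine max_le ?_ (mul_nonneg (le_max_right _ _) hr0.le)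
    refine le_trans ?_ (mul_le_mul_of_nonneg_right (le_max_left (⟪z, e⟫ + ε) 0) hr0.le)
    nlinarith [h4.2]


/-! ### Rescalings -/

theorem resc_resc (u : E d → ℝ) (x z : E d) (r s : ℝ) :
    resc (resc u x r) z s = resc u (x + r • z) (r * s) := by
  funext y
  simp only [resc]
  rw [div_div, smul_add, smul_smul, add_assoc]

theorem treg_resc {ε : ℝ} {u : E d → ℝ} {x z : E d} {r : ℝ} (hr : 0 < r) :
    TReg ε (resc u x r) z ↔ TReg ε u (x + r • z) := by
  constructor
  · rintro ⟨s, e, hs, he, h⟩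
    refine ⟨r * s, e, mul_pos hr hs, he, ?_⟩
    rwa [resc_resc] at h
  · rintro ⟨s, e, hs, he, h⟩
    refine ⟨s / r, e, div_pos hs hr, he, ?_⟩
    rwa [resc_resc, mul_div_cancel₀ _ hr.ne']

theorem mem_tsg_resc {ε : ℝ} {u : E d → ℝ} {x z : E d} {r : ℝ} (hr : 0 < r) :
    z ∈ TSg ε (resc u x r) ↔ x + r • z ∈ TSg ε u := by
  simp only [TSg, mem_ofPred_eq]
  rw [mem_frontier_resc hr, treg_resc hr]

/-! ### Stability -/

/-- Flatness passes to approximations, at half the scale. -/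
theorem trap_near {c : ℝ} (hc : 0 < c) {L : ℝ≥0} {g : ℕ → E d → ℝ} {w : E d → ℝ}
    (hg : ∀ n, MinL L (g n)) (hnd : ∀ n, NonDeg c (g n))
    (hlim : ∀ x, Tendsto (fun n => g n x) atTop (𝓝 (w x))) {ε : ℝ} (hε : 0 < ε) {e : E d}
    (he : ‖e‖ = 1) (hT : Trap w (fun z => ⟪z, e⟫) (-ε) ε 0 1) :
    ∀ᶠ n in atTop, Trap (resc (g n) 0 (1 / 2)) (fun z => ⟪z, e⟫) (-(8 * ε)) (8 * ε) 0 1 := by
  set ρ : ℝ := min ε (1 / 4) with hρ
  have hρ0 : 0 < ρ := by positivity
  have hρ1 : ρ ≤ ε := min_le_left _ _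
  have hρ2 : ρ ≤ 1 / 4 := min_le_right _ _
  set δ : ℝ := min ε (c * ρ / 2) with hδ
  have hδ0 : 0 < δ := by positivity
  have hδ1 : δ ≤ ε := min_le_left _ _
  have hδ2 : δ ≤ c * ρ / 2 := min_le_right _ _
  have hcρ : 0 < c * ρ := mul_pos hc hρ0
  filter_upwards [unif_on_balls (fun n => (hg n).lip) hlim 1 hδ0] with n hn
  intro z hz
  rw [mem_ball_zero_iff] at hz
  set y : E d := (1 / 2 : ℝ) • z with hy
  have hyn : ‖y‖ < 1 / 2 := by
    rw [hy, norm_smul, Real.norm_eq_abs, abs_of_pos (by norm_num)]; linarith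
  have hzy : ⟪z, e⟫ = 2 * ⟪y, e⟫ := by
    rw [hy, real_inner_smul_left]; ring
  have hres : resc (g n) 0 (1 / 2) z = 2 * g n y := by
    rw [resc, zero_add]; ring
  have hy1 := hT y (by rw [mem_ball_zero_iff]; linarith)
  have hy2 := abs_le.1 (hn y (by rw [mem_closedBall_zero_iff]; linarith))
  have hlo : ⟪y, e⟫ + -ε ≤ w y := (le_max_left _ _).trans hy1.1
  have hgn := (hg n).nonneg y
  constructor
  · rw [hres]
    refine max_le ?_ (by linarith)
    show ⟪z, e⟫ + -(8 * ε) ≤ _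
    rw [hzy]; linarith [hy2.1]
  · rw [hres]
    show _ ≤ max (⟪z, e⟫ + 8 * ε) 0
    rw [hzy]
    rcases le_or_gt (-(2 * ε)) ⟪y, e⟫ with h | h
    · refine le_max_of_le_left ?_
      have h3 : w y ≤ ⟪y, e⟫ + 3 * ε := by
        refine hy1.2.trans (max_le ?_ ?_) <;> linarith
      linarith [hy2.2]
    · refine le_max_of_le_right ?_
      have : g n y = 0 := by
        by_contra hne
        have hpos : 0 < g n y := lt_of_le_of_ne hgn (Ne.symm hne)
        obtain ⟨y', hy', hcy⟩ := hnd n y hpos ρ hρ0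
        rw [mem_closedBall, dist_eq_norm] at hy'
        have hy'n : ‖y'‖ < 1 := by
          have : ‖y'‖ ≤ ‖y' - y‖ + ‖y‖ := by
            calc ‖y'‖ = ‖(y' - y) + y‖ := by rw [sub_add_cancel]
              _ ≤ _ := norm_add_le _ _
          linarith
        have hin : ⟪y', e⟫ < -ε := by
          have h1 : ⟪y', e⟫ = ⟪y, e⟫ + ⟪y' - y, e⟫ := by rw [inner_sub_left]; ring
          have h2 : ⟪y' - y, e⟫ ≤ ‖y' - y‖ * ‖e‖ := real_inner_le_norm _ _
          rw [he, mul_one] at h2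
          linarith
        have h1 := (hT y' (by rw [mem_ball_zero_iff]; exact hy'n)).2
        rw [max_eq_right (show ⟪y', e⟫ + ε ≤ 0 by linarith)] at h1
        have h2 := abs_le.1 (hn y' (by rw [mem_closedBall_zero_iff]; exact hy'n.le))
        linarith [h2.2]
      rw [this]; simp

/-- Limits of rescalings with moving centres. -/
theorem resc_tendsto {L : ℝ≥0} {f : ℕ → E d → ℝ} {v : E d → ℝ} (hf : ∀ n, LipschitzWith L (f n))
    (hlim : ∀ x, Tendsto (fun n => f n x) atTop (𝓝 (v x))) {x : ℕ → E d} {x₀ : E d}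
    (hx : Tendsto x atTop (𝓝 x₀)) (r : ℝ) (z : E d) :
    Tendsto (fun n => resc (f n) (x n) r z) atTop (𝓝 (resc v x₀ r z)) := by
  have h1 : Tendsto (fun n => f n (x n + r • z) - f n (x₀ + r • z)) atTop (𝓝 0) := by
    have hb : Tendsto (fun n => (L : ℝ) * dist (x n) x₀) atTop (𝓝 0) := by
      have := (tendsto_iff_dist_tendsto_zero.1 hx).const_mul (L : ℝ)
      simpa using this
    refine squeeze_zero_norm (fun n => ?_) hb
    have := (hf n).dist_le_mul (x n + r • z) (x₀ + r • z)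
    rwa [dist_add_right, Real.dist_eq] at this
  have h2 := h1.add (hlim (x₀ + r • z))
  simp only [sub_add_cancel, zero_add] at h2
  exact h2.div_const r

/-- **Limits of singular points are singular.** -/
theorem tsg_limit {ε : ℝ} (hgood : Good d ε) (hd : 1 ≤ d) {L : ℝ≥0} {f : ℕ → E d → ℝ}
    {v : E d → ℝ} (hf : ∀ n, MinL L (f n)) (hlim : ∀ x, Tendsto (fun n => f n x) atTop (𝓝 (v x)))
    {x : ℕ → E d} {x₀ : E d} (hx : Tendsto x atTop (𝓝 x₀)) (hs : ∀ n, x n ∈ TSg ε (f n)) :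
    x₀ ∈ TSg ε v := by
  obtain ⟨c, hc, hnd⟩ := nondeg d hd
  have hv : MinL L v := lim_minL hd hf hlim
  have hfl : ∀ n, LipschitzWith L (f n) := fun n => (hf n).lip
  have hg : ∀ r : ℝ, 0 < r → ∀ n, MinL L (resc (f n) (x n) r) := fun r hr n => (hf n).resc _ hr
  have hfr : x₀ ∈ frontier (pos v) := by
    have h1 : (0 : E d) ∈ closure (pos (resc v x₀ 1)) := by
      refine lim_closure (hg 1 one_pos) (resc_tendsto hfl hlim hx 1) hc
        (fun n => hnd L _ (hg 1 one_pos n)) fun n => ?_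
      rw [mem_closure_resc one_pos, smul_zero, add_zero]
      exact frontier_subset_closure (hs n).1
    rw [mem_closure_resc one_pos, smul_zero, add_zero] at h1
    rw [frontier, hv.isOpen_pos.interior_eq]
    refine ⟨h1, ?_⟩
    have h2 := resc_tendsto hfl hlim hx 1 0
    have h3 : ∀ n, resc (f n) (x n) 1 0 = 0 := fun n => by
      simp [resc, (hf n).zero_of_frontier (hs n).1]
    simp only [h3] at h2
    have h4 := tendsto_nhds_unique h2 tendsto_const_nhds
    simp only [resc, smul_zero, add_zero, div_one] at h4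
    exact fun h => (show (0 : ℝ) < v x₀ from h).ne' h4
  refine ⟨hfr, fun hT => ?_⟩
  have hreg := hgood.2 L v x₀ hv hfr hT
  obtain ⟨r, e, hr, he, htrap⟩ := hreg.trap hv hfr (show 0 < ε / 8 by linarith [hgood.1])
  have h1 := trap_near hc (hg r hr) (fun n => hnd L _ (hg r hr n))
    (resc_tendsto hfl hlim hx r) (show 0 < ε / 8 by linarith [hgood.1]) he htrap
  obtain ⟨n, hn⟩ := h1.exists
  rw [resc_resc, smul_zero, add_zero, show 8 * (ε / 8) = ε by ring] at hn
  exact (hs n).2 ⟨r * (1 / 2), e, by positivity, he, hn⟩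

theorem isClosed_tsg {ε : ℝ} (hgood : Good d ε) (hd : 1 ≤ d) {L : ℝ≥0} {v : E d → ℝ}
    (hv : MinL L v) : IsClosed (TSg ε v) := by
  refine IsSeqClosed.isClosed fun x x₀ hx hlim => ?_
  exact tsg_limit hgood hd (f := fun _ => v) (fun _ => hv) (fun _ => tendsto_const_nhds) hlim hx

/-- Half-plane solutions have no singular points. -/
theorem tsg_flat {ε : ℝ} (hε : 0 < ε) {v : E d → ℝ}
    (h : (∀ x, v x = 0) ∨ ∃ e : E d, ‖e‖ = 1 ∧ ∀ x, v x = max ⟪x, e⟫ 0) : TSg ε v = ∅ := by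
  rcases h with h | ⟨e, he, h⟩
  · have : pos v = ∅ := by ext x; simp [h x]
    ext x
    simp [TSg, this]
  · ext x₀
    simp only [TSg, mem_ofPred_eq, mem_empty_iff_false, iff_false, not_and, not_not]
    intro hx
    have hvc : Continuous v := by
      have : v = fun x => max ⟪x, e⟫ 0 := funext h
      rw [this]; fun_prop
    have hop : IsOpen (pos v) := isOpen_lt continuous_const hvc
    rw [frontier, hop.interior_eq] at hx
    have h1 : ⟪x₀, e⟫ ≤ 0 := by
      by_contra hcon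
      push Not at hcon
      exact hx.2 (by rw [mem_ofPred_eq, h]; exact lt_max_of_lt_left hcon)
    have h2 : 0 ≤ ⟪x₀, e⟫ := by
      have hcl : closure (pos v) ⊆ {x | 0 ≤ ⟪x, e⟫} := by
        refine closure_minimal (fun x hx => ?_) (isClosed_le continuous_const (by fun_prop))
        rw [mem_ofPred_eq, h] at hx
        rcases lt_max_iff.1 hx with h3 | h3
        · exact h3.le
        · exact absurd h3 (lt_irrefl _)
      exact hcl hx.1
    have h0 : ⟪x₀, e⟫ = 0 := le_antisymm h1 h2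
    refine ⟨1, e, one_pos, he, fun z _ => ?_⟩
    have hz : resc v x₀ 1 z = max ⟪z, e⟫ 0 := by
      rw [resc, h, inner_add_left, h0, zero_add, one_smul, div_one]
    rw [hz]
    exact ⟨max_le_max (by linarith) le_rfl, max_le_max (by linarith) le_rfl⟩

end Vale.Agent.P098.H246
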